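import Mathlib
import Vale.Agent.P040.SideDrawing

/-!
Zarankiewicz's bound for all drawings with one class on a line crossed by no edge.
-/

theorem Vale.Agent.Results.P040.SideClass.result :
    ∀ (m n : ℕ) (a : Fin m → ℝ) (b : Fin n → ℂ) (e : ∀ i j, Path (a i : ℂ) (b j)),
      StrictMono a → Function.Injective b → (∀ i j, b j ≠ a i) →
      (∀ j, (∀ i t, 0 ≤ (e i j t).im) ∨ ∀ i t, (e i j t).im ≤ 0) →
      (∀ i j i', ∀ t ∈ Set.Ioo (0 : unitInterval) 1, e i j t ≠ a i') →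
      (∀ i j j', ∀ t ∈ Set.Ioo (0 : unitInterval) 1, e i j t ≠ b j') →
      m / 2 * ((m - 1) / 2) * (n / 2 * ((n - 1) / 2)) ≤
        {q : (Fin m × Fin m) × Fin n × Fin n | q.1.1 < q.1.2 ∧ q.2.1 ≠ q.2.2 ∧
          ∃ u ∈ Set.Ioo (0 : unitInterval) 1, ∃ v ∈ Set.Ioo (0 : unitInterval) 1,
            e q.1.1 q.2.1 u = e q.1.2 q.2.2 v}.ncard :=
  fun _ _ a b e ha hb hab hs hA hB =>
    Vale.Agent.P040.zarankiewicz_side a b ha hb hab e hs hA hB
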